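import Vale.Agent.P235.H917.Thin

/-!
# The first quotient, minors of quotients (helper917)
-/

namespace Vale.Agent.P235.H917

open SimpleGraph Vale.Agent.P235.H134 Vale.Agent.P235.H56 Vale.Agent.P235.H141
open Vale.Agent.P235.H341W (capG)

theorem conn3_mono {V : Type} {H G : SimpleGraph V} (h : Conn3 H) (hle : H ≤ G) : Conn3 G :=
  fun s t C hC hs ht hcl y => h s t C hC hs ht (fun u hu v huv => hcl u hu v (hle huv)) y

theorem conn3_conn {V : Type} [Finite V] {G : SimpleGraph V} (h : Conn3 G)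
    (h3 : 3 ≤ Nat.card V) : G.Connected := by
  have hne : Nonempty V := by
    by_contra hno
    rw [not_nonempty_iff] at hno
    rw [Nat.card_of_isEmpty] at h3
    omega
  refine ⟨fun x y => ?_⟩
  by_contra hxy
  have hcl : ∀ u ∈ {u | G.Reachable x u}, ∀ v, G.Adj u v → v ∈ {u | G.Reachable x u} ∨ v = y ∨ v = y :=
    fun u hu v huv => Or.inl (Reachable.trans hu huv.reachable)
  have h1 := h y y {u | G.Reachable x u} ⟨x, Reachable.refl _⟩ hxy hxy hcl
  have hyx : ∀ v, ¬ G.Adj y v := by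
    intro v hv
    rcases h1 v with h' | h' | h'
    · exact hxy (Reachable.trans h' hv.symm.reachable)
    · exact hv.ne h'.symm
    · exact hv.ne h'.symm
  have hne' : x ≠ y := fun e => hxy (e ▸ Reachable.refl _)
  have h2 := h x x {y} ⟨y, rfl⟩ (fun e => hne' e) (fun e => hne' e)
    (fun u hu v huv => absurd (show G.Adj y v from (show u = y from hu) ▸ huv) (hyx v))
  have hle := Set.ncard_le_ncard (fun z _ => by
    rcases h2 z with h' | h' | h'
    · exact Or.inr h'
    · exact Or.inl h'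
    · exact Or.inl h' : (Set.univ : Set V) ⊆ {x, y}) (Set.toFinite _)
  rw [Set.ncard_univ, Set.ncard_pair hne'] at hle
  omega

theorem minor_ind {V : Type} {G : SimpleGraph V} {S T : Set V} (h : S ⊆ T) :
    IsMinor (G.induce S) (G.induce T) := by
  refine ⟨fun x => {⟨x.1, h x.2⟩}, fun x => conn_single _ _, fun x y hxy => ?_, fun x y hxy => ?_⟩
  · rw [Set.disjoint_singleton]
    intro e
    exact hxy (Subtype.ext (congrArg (fun z : T => z.1) e))
  · exact ⟨_, rfl, _, rfl, hxy⟩

theorem quot_minor {V W : Type} {G : SimpleGraph V} {f : V → W}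
    (h1 : ∀ a, (G.induce {x | f x = a}).Connected) : IsMinor (quot G f) G := by
  refine ⟨fun a => {x | f x = a}, h1, fun a b hab => ?_, fun a b hab => ?_⟩
  · rw [Set.disjoint_left]
    intro x hx hx'
    exact hab ((show f x = a from hx).symm.trans hx')
  · obtain ⟨_, x, y, hx, hy, h⟩ := hab
    exact ⟨x, hx, y, hy, h⟩

/-- minors of quotients -/
theorem pull_sum {U V W : Type} {H : SimpleGraph U} {G : SimpleGraph V} {f : V → W}
    (h1 : ∀ a, (G.induce {x | f x = a}).Connected) (h : IsMinor H (quot G f)) : IsMinor H G :=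
  minor_trans h (quot_minor h1)

/-- a `K_{3,3}` minor of a quotient one of whose fibres has a minor `hub 4 r` -/
theorem pull {V W : Type} [Finite V] {G : SimpleGraph V} {f : V → W} {r : ℕ}
    (h1 : ∀ a, (G.induce {x | f x = a}).Connected) (hc : (quot G f).Connected)
    (hK : IsMinor K33 (quot G f)) (hr : 1 ≤ r)
    (ha : ∃ a, IsMinor (hub 4 r) (G.induce {x | f x = a})) : IsMinor (K33 ⊕g grid r) G := by
  have hs : Function.Surjective f := fun a => by
    obtain ⟨⟨x, hx⟩⟩ := (h1 a).nonempty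
    exact ⟨x, hx⟩
  have : Finite W := Finite.of_surjective f hs
  obtain ⟨φ, c1, c2⟩ := exists_model hc ⟨Sum.inl 0⟩ hK
  obtain ⟨a, ha⟩ := ha
  refine modelStmt V G r (fun b => f ⁻¹' {w | φ w = b}) hr
    (fun b => pre_conn h1 (le_refl (quot G f)) (c1 b)) (fun b b' hb => ?_) (fun b b' hb => ?_)
    ⟨φ a, minor_trans ha (minor_ind ?_)⟩
  · rw [Set.disjoint_left]
    intro x hx hx'
    exact hb ((show φ (f x) = b from hx).symm.trans hx')
  · obtain ⟨_, w, w', hw, hw', _, x, y, hx, hy, hxy⟩ := c2 hb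
    exact ⟨x, by show φ (f x) = b; rw [hx, hw], y, by show φ (f y) = b'; rw [hy, hw'], hxy⟩
  · intro x hx
    show φ (f x) = φ a
    rw [show f x = a from hx]

/-- the copy `0` -/
def cp {m : ℕ} : Option (Fin 5 × (Fin m × Fin m)) → Option (Fin m × Fin m)
  | none => none
  | some (i, x) => if i = 0 then some x else none

/-- the other copies -/
def up {m : ℕ} : Option (Fin 4 × (Fin m × Fin m)) → Option (Fin 5 × (Fin m × Fin m))
  | none => none
  | some (i, x) => some (i.succ, x)

theorem cp_some {m : ℕ} {y : Option (Fin 5 × (Fin m × Fin m))} {x : Fin m × Fin m} :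
    cp y = some x ↔ y = some (0, x) := by
  rcases y with _ | ⟨i, z⟩
  · simp [cp]
  · by_cases hi : i = 0
    · simp [cp, hi]
    · simp [cp, hi]

theorem cp_none {m : ℕ} {y : Option (Fin 5 × (Fin m × Fin m))} :
    cp y = none ↔ y ∈ sub 5 m fun j => j ≠ 0 := by
  rcases y with _ | ⟨i, z⟩
  · exact ⟨fun _ => none_mem _, fun _ => rfl⟩
  · by_cases hi : i = 0
    · constructor
      · intro h
        simp [cp, hi] at h
      · intro h
        exact absurd hi (h (i, z) rfl)
    · exact ⟨fun _ => some_mem hi z, fun _ => by simp [cp, hi]⟩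

theorem cp_up {m : ℕ} (y : Option (Fin 4 × (Fin m × Fin m))) : cp (up y) = none := by
  rcases y with _ | ⟨i, z⟩
  · rfl
  · simp [cp, up, Fin.succ_ne_zero]

theorem up_inj {m : ℕ} : Function.Injective (up (m := m)) := by
  rintro (_ | ⟨i, x⟩) (_ | ⟨j, y⟩) h
  · rfl
  · simp [up] at h
  · simp [up] at h
  · simpa [up] using h

theorem up_adj {m : ℕ} {a b : Option (Fin 4 × (Fin m × Fin m))} (h : (hub 4 m).Adj a b) :
    (hub 5 m).Adj (up a) (up b) := by
  rcases a with _ | ⟨i, x⟩ <;> rcases b with _ | ⟨j, y⟩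
  · exact absurd h (fun h => h)
  · exact h
  · exact h
  · have h' : ((⊥ : SimpleGraph (Fin 4)) □ grid m).Adj (i, x) (j, y) := h
    rw [boxProd_adj] at h'
    rcases h' with ⟨h1, _⟩ | ⟨h1, h2⟩
    · exact h1.elim
    · have h2' : i = j := h2
      subst h2'
      exact hub_adj _ h1

/-- (Start) -/
theorem start {V : Type} [Finite V] {G : SimpleGraph V} {m : ℕ} (hm : 1 ≤ m)
    (hG : G.Connected) (h : IsMinor (hub 5 m) G) :
    ∃ f : V → Option (Fin m × Fin m), (∀ a, (G.induce {x | f x = a}).Connected) ∧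
      capG (grid m) (bd m) ≤ quot G f ∧ IsMinor (hub 4 m) (G.induce {x | f x = none}) := by
  obtain ⟨φ, h1, h2⟩ := exists_model hG ⟨none⟩ h
  have e1 : ∀ x, {v | cp (φ v) = some x} = {v | φ v = some (0, x)} := by
    intro x
    ext v
    exact cp_some
  have e2 : {v | cp (φ v) = none} = φ ⁻¹' sub 5 m fun j => j ≠ 0 := by
    ext v
    exact cp_none
  refine ⟨fun v => cp (φ v), ?_, ?_, ?_⟩
  · rintro (_ | x)
    · rw [e2]
      exact pre_conn h1 h2 (sub_conn hm _)
    · rw [e1]
      exact h1 _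
  · rintro (_ | x) (_ | y) hxy
    · exact absurd hxy (fun h => h)
    · have h3 : (hub 5 m).Adj none (some (0, y)) := hxy
      obtain ⟨_, u, v, hu, hv, huv⟩ := h2 h3
      exact ⟨by simp, u, v, congrArg cp hu, cp_some.2 hv, huv⟩
    · have h3 : (hub 5 m).Adj (some (0, x)) none := hxy
      obtain ⟨_, u, v, hu, hv, huv⟩ := h2 h3
      exact ⟨by simp, u, v, cp_some.2 hu, congrArg cp hv, huv⟩
    · have h3 : (hub 5 m).Adj (some (0, x)) (some (0, y)) := hub_adj 0 hxy
      obtain ⟨_, u, v, hu, hv, huv⟩ := h2 h3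
      exact ⟨fun e => Adj.ne hxy e, u, v, cp_some.2 hu, cp_some.2 hv, huv⟩
  · have hn : ∀ y v, φ v = up y → cp (φ v) = none := fun y v hv => by rw [hv]; exact cp_up y
    refine ⟨fun y => {v | φ v.1 = up y}, fun y => ?_, fun y z hyz => ?_, fun y z hyz => ?_⟩
    · refine connected_of_map (A := G.induce {v | φ v = up y})
        (fun v => ⟨⟨v.1, hn y v.1 v.2⟩, v.2⟩) ?_ (fun a b hab => Or.inr hab) (h1 _)
      rintro ⟨⟨v, hv⟩, hv'⟩
      exact ⟨⟨v, hv'⟩, rfl⟩
    · rw [Set.disjoint_left]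
      intro v hv hv'
      exact hyz (up_inj ((show φ v.1 = up y from hv).symm.trans hv'))
    · obtain ⟨_, u, v, hu, hv, huv⟩ := h2 (up_adj hyz)
      exact ⟨⟨u, hn y u hu⟩, hu, ⟨v, hn z v hv⟩, hv, huv⟩

end Vale.Agent.P235.H917
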