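import Vale.Agent.P235.H917.Start
import Vale.Agent.P235.H477.K4
import Vale.Agent.P235.H141.Refine

/-!
# The last plane quotient (helper917)
-/

namespace Vale.Agent.P235.H917

open SimpleGraph Vale.Agent.P235 Vale.Agent.P235.H134 Vale.Agent.P235.H56 Vale.Agent.P235.H141
open Vale.Agent.P235.H341W (capG)

theorem minor_refl {V : Type} (G : SimpleGraph V) : IsMinor G G :=
  ⟨fun x => {x}, fun _ => conn_single _ _, fun _ _ h => Set.disjoint_singleton.2 h,
    fun x y h => ⟨x, rfl, y, rfl, h⟩⟩

/-- contracting the edge `none`, `some w` -/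
theorem getD_minor {W : Type} {K : SimpleGraph (Option W)} {w : W} (h : K.Adj none (some w)) :
    IsMinor (quot K fun x => x.getD w) K := by
  refine quot_minor fun a => ?_
  by_cases ha : a = w
  · subst ha
    have e : {x : Option W | x.getD a = a} = {none, some a} := by
      ext x
      rcases x with _ | x
      · simp
      · simp
    rw [e]
    exact conn_pair K h
  · have e : {x : Option W | x.getD w = a} = {some a} := by
      ext x
      rcases x with _ | x
      · simp [Ne.symm ha]
      · simp
    rw [e]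
    exact conn_single K _

/-- a bijective quotient -/
theorem quot_iso {V W : Type} {G : SimpleGraph V} {f : V → W} (hf : Function.Bijective f) :
    Nonempty (quot G f ≃g G) := by
  refine ⟨(⟨Equiv.ofBijective f hf, ?_⟩ : G ≃g quot G f).symm⟩
  intro a b
  constructor
  · rintro ⟨_, x, y, hx, hy, hxy⟩
    rw [← hf.1 hx, ← hf.1 hy]
    exact hxy
  · intro hab
    exact ⟨fun h => hab.ne (hf.1 h), a, b, rfl, rfl, hab⟩

/-- (Last) refine a plane quotient until the next quotient is not plane -/
theorem last_of (hR : RefineStmt) {V : Type} [Finite V] {G : SimpleGraph V} (h3 : Conn3 G)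
    (hnp : ¬ ∃ σ : Equiv.Perm G.Dart, PlaneMap G σ) (n : ℕ) : ∀ (W : Type) [Finite W] (f : V → W),
      Nat.card V = Nat.card W + n → (∀ a, (G.induce {x | f x = a}).Connected) →
      Conn3 (quot G f) → (∃ σ : Equiv.Perm (quot G f).Dart, PlaneMap (quot G f) σ) →
      4 ≤ Nat.card W →
      ∃ (W' : Type) (_ : Finite W') (g : V → Option W') (w : W'), 4 ≤ Nat.card W' ∧
        (∀ x, (G.induce {v | g v = x}).Connected) ∧ Conn3 (quot G g) ∧
        (quot G g).Adj none (some w) ∧
        (¬ ∃ σ : Equiv.Perm (quot G g).Dart, PlaneMap (quot G g) σ) ∧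
        (∃ σ : Equiv.Perm (quot (quot G g) fun x => x.getD w).Dart,
          PlaneMap (quot (quot G g) fun x => x.getD w) σ) ∧
        Conn3 (quot (quot G g) fun x => x.getD w) ∧
        IsMinor (quot G f) (quot (quot G g) fun x => x.getD w) := by
  induction n with
  | zero =>
    intro W _ f hn hf hq hp h4
    have hs : Function.Surjective f := fun a => by
      obtain ⟨⟨x, hx⟩⟩ := (hf a).nonempty
      exact ⟨x, hx⟩
    have hb : Function.Bijective f := (Nat.bijective_iff_surjective_and_card f).2 ⟨hs, hn⟩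
    obtain ⟨e⟩ := quot_iso (G := G) hb
    exact (hnp (H477.planeMap_iso e hp)).elim
  | succ n ih =>
    intro W _ f hn hf hq hp h4
    obtain ⟨g, w, g1, g2, g3, g4⟩ := hR V W G f h3 hf hq h4 (by omega)
    by_cases hpg : ∃ σ : Equiv.Perm (quot G g).Dart, PlaneMap (quot G g) σ
    · have hcard : Nat.card (Option W) = Nat.card W + 1 := by
        have := Fintype.ofFinite W
        rw [Nat.card_eq_fintype_card, Nat.card_eq_fintype_card, Fintype.card_option]
      obtain ⟨W', hW', g', w', b0, b1, b2, b3, b4, b5, b6, b7⟩ :=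
        ih (Option W) g (by omega) g1 g2 hpg (by omega)
      refine ⟨W', hW', g', w', b0, b1, b2, b3, b4, b5, b6, minor_trans ?_ b7⟩
      rw [← g4]
      exact getD_minor g3
    · exact ⟨W, inferInstance, g, w, h4, g1, g2, g3, hpg, by rw [g4]; exact hp,
        by rw [g4]; exact hq, by rw [g4]; exact minor_refl _⟩

/-- (Last) -/
theorem last {V W : Type} [Finite V] [Finite W] {G : SimpleGraph V} {f : V → W} (h3 : Conn3 G)
    (hnp : ¬ ∃ σ : Equiv.Perm G.Dart, PlaneMap G σ) (hf : ∀ a, (G.induce {x | f x = a}).Connected)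
    (hq : Conn3 (quot G f)) (hp : ∃ σ : Equiv.Perm (quot G f).Dart, PlaneMap (quot G f) σ)
    (h4 : 4 ≤ Nat.card W) :
    ∃ (W' : Type) (_ : Finite W') (g : V → Option W') (w : W'), 4 ≤ Nat.card W' ∧
      (∀ x, (G.induce {v | g v = x}).Connected) ∧ Conn3 (quot G g) ∧
      (quot G g).Adj none (some w) ∧
      (¬ ∃ σ : Equiv.Perm (quot G g).Dart, PlaneMap (quot G g) σ) ∧
      (∃ σ : Equiv.Perm (quot (quot G g) fun x => x.getD w).Dart,
        PlaneMap (quot (quot G g) fun x => x.getD w) σ) ∧
      Conn3 (quot (quot G g) fun x => x.getD w) ∧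
      IsMinor (quot G f) (quot (quot G g) fun x => x.getD w) := by
  have hs : Function.Surjective f := fun a => by
    obtain ⟨⟨x, hx⟩⟩ := (hf a).nonempty
    exact ⟨x, hx⟩
  have hle : Nat.card W ≤ Nat.card V := Nat.card_le_card_of_surjective f hs
  exact last_of refineStmt h3 hnp (Nat.card V - Nat.card W) W f (by omega) hf hq hp h4

end Vale.Agent.P235.H917
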