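import Vale.Agent.P235.H141.JDefs
import Vale.Agent.P235.H141.Mk
import Vale.Agent.P235.H56.MinTrans

/-!
# Thinning a branch set: (TL) and (MO) (helper917)
-/

namespace Vale.Agent.P235.H917

open SimpleGraph Vale.Agent.P235.H134 Vale.Agent.P235.H56 Vale.Agent.P235.H141
open Vale.Agent.P235.H341W (capG)

theorem grid_conn {r : ℕ} (hr : 1 ≤ r) : (grid r).Connected := by
  obtain ⟨s, rfl⟩ : ∃ s, r = s + 1 := ⟨r - 1, by omega⟩
  exact (pathGraph_connected s).boxProd (pathGraph_connected s)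

/-- the hub and the copies `i` with `P i` -/
def sub (n r : ℕ) (P : Fin n → Prop) : Set (Option (Fin n × (Fin r × Fin r))) :=
  {y | ∀ z, y = some z → P z.1}

theorem none_mem {n r : ℕ} (P : Fin n → Prop) : none ∈ sub n r P := fun z hz => by cases hz

theorem some_mem {n r : ℕ} {P : Fin n → Prop} {i : Fin n} (hi : P i) (x : Fin r × Fin r) :
    some (i, x) ∈ sub n r P := fun z hz => by
  cases hz
  exact hi

theorem hub_adj {n r : ℕ} (i : Fin n) {x y : Fin r × Fin r} (h : (grid r).Adj x y) :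
    (hub n r).Adj (some (i, x)) (some (i, y)) := by
  change ((⊥ : SimpleGraph (Fin n)) □ grid r).Adj (i, x) (i, y)
  rw [boxProd_adj]
  exact Or.inr ⟨h, rfl⟩

theorem sub_conn {n r : ℕ} (hr : 1 ≤ r) (P : Fin n → Prop) :
    ((hub n r).induce (sub n r P)).Connected := by
  have key : ∀ y : sub n r P,
      ((hub n r).induce (sub n r P)).Reachable ⟨none, none_mem P⟩ y := by
    rintro ⟨_ | ⟨i, x⟩, hy⟩
    · exact Reachable.refl _
    · have hi : P i := hy (i, x) rfl
      have h1 : (grid r).Reachable (⟨0, hr⟩, ⟨0, hr⟩) x := (grid_conn hr).preconnected _ _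
      let f : grid r →g (hub n r).induce (sub n r P) :=
        ⟨fun z => ⟨some (i, z), some_mem hi z⟩, fun {a b} h => hub_adj i h⟩
      have h2 := h1.map f
      refine Reachable.trans (Adj.reachable ?_) h2
      show (hub n r).Adj none (some (i, (⟨0, hr⟩, ⟨0, hr⟩)))
      exact Or.inl rfl
  have : Nonempty (sub n r P) := ⟨⟨none, none_mem P⟩⟩
  exact ⟨fun x y => (key x).symm.trans (key y)⟩

theorem hub_conn {n r : ℕ} (hr : 1 ≤ r) : (hub n r).Connected := by
  have h := sub_conn (n := n) hr fun _ => True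
  refine connected_of_map (A := (hub n r).induce (sub n r fun _ => True)) (fun x => x.1)
    (fun y => ⟨⟨y, fun _ _ => trivial⟩, rfl⟩) (fun x y hxy => Or.inr hxy) h

/-- the preimage of a connected set under a map with connected fibres -/
theorem pre_conn {V W : Type} {G : SimpleGraph V} {H : SimpleGraph W} {φ : V → W}
    (h1 : ∀ a, (G.induce {x | φ x = a}).Connected) (h2 : H ≤ quot G φ) {S : Set W}
    (hS : (H.induce S).Connected) : (G.induce (φ ⁻¹' S)).Connected := by
  have h3 : ∀ a b, H.Adj a b → ∃ x ∈ {x | φ x = a}, ∃ y ∈ {x | φ x = b}, G.Adj x y := by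
    intro a b hab
    obtain ⟨_, x, y, hx, hy, h⟩ := h2 hab
    exact ⟨x, hx, y, hy, h⟩
  have hT : ∀ a ∈ S, {x | φ x = a} ⊆ φ ⁻¹' S := by
    intro a ha x hx
    show φ x ∈ S
    rw [show φ x = a from hx]
    exact ha
  obtain ⟨⟨a, ha⟩⟩ := hS.nonempty
  obtain ⟨⟨x, hx⟩⟩ := (h1 a).nonempty
  have : Nonempty (φ ⁻¹' S) := ⟨⟨x, hT a ha hx⟩⟩
  refine ⟨?_⟩
  rintro ⟨u, hu⟩ ⟨v, hv⟩
  obtain ⟨w⟩ := hS.preconnected ⟨φ u, hu⟩ ⟨φ v, hv⟩
  exact reachable_union h1 h3 hT w u v rfl rfl

/-- (TL) -/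
theorem thinStmt : ThinStmt := by
  classical
  intro V _ G r w hr hG hm
  obtain ⟨φ, h1, h2⟩ := exists_model hG ⟨none⟩ hm
  -- a copy without any of the three vertices
  obtain ⟨i, hi⟩ : ∃ i : Fin 4, ∀ j x, φ (w j) ≠ some (i, x) := by
    by_contra hno
    push Not at hno
    choose f x hx using hno
    have hinj : Function.Injective f := by
      intro a b hab
      have h := hx a
      rw [hab, hx b] at h
      have := congrArg (fun z : Option (Fin 4 × (Fin r × Fin r)) => z.map Prod.fst) h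
      simpa using this.symm
    have := Fintype.card_le_of_injective f hinj
    simp at this
  refine ⟨φ ⁻¹' sub 4 r fun j => j ≠ i, pre_conn h1 h2 (sub_conn hr _), ?_, ?_⟩
  · intro j z hz hzi
    obtain ⟨a, x⟩ := z
    exact hi j x (by rw [hz, show a = i from hzi])
  · have hc : ∀ x v, φ v = some (i, x) → v ∈ (φ ⁻¹' sub 4 r fun j => j ≠ i)ᶜ := by
      intro x v hv h
      exact h (i, x) hv rfl
    refine ⟨fun x => {v | φ v.1 = some (i, x)}, fun x => ?_, fun x y hxy => ?_, fun x y hxy => ?_⟩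
    · refine connected_of_map (A := G.induce {v | φ v = some (i, x)})
        (fun v => ⟨⟨v.1, hc x v.1 v.2⟩, v.2⟩) ?_ (fun a b hab => Or.inr hab) (h1 _)
      rintro ⟨⟨v, hv⟩, hv'⟩
      exact ⟨⟨v, hv'⟩, rfl⟩
    · rw [Set.disjoint_left]
      intro v hv hv'
      have h : some (i, x) = some (i, y) := (show φ v.1 = _ from hv).symm.trans hv'
      simp only [Option.some.injEq, Prod.mk.injEq, true_and] at h
      exact hxy h
    · obtain ⟨_, u, v, hu, hv, huv⟩ := h2 (hub_adj i hxy)
      exact ⟨⟨u, hc x u hu⟩, hu, ⟨v, hc y v hv⟩, hv, huv⟩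

/-- induced subgraphs of induced subgraphs -/
theorem conn_image {V : Type} {G : SimpleGraph V} {S : Set V} {T : Set S}
    (h : ((G.induce S).induce T).Connected) :
    (G.induce ((fun x : S => x.1) '' T)).Connected := by
  refine connected_of_map (A := (G.induce S).induce T) (fun x => ⟨x.1.1, x.1, x.2, rfl⟩) ?_
    (fun a b hab => Or.inr hab) h
  rintro ⟨v, x, hx, rfl⟩
  exact ⟨⟨x, hx⟩, rfl⟩

/-- (MO) -/
theorem modelStmt : ModelStmt := by
  classical
  rintro V _ G r μ hr c1 c2 c3 ⟨a, ha⟩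
  -- the neighbours of `a`
  obtain ⟨nb, hnb, hnb'⟩ : ∃ nb : Fin 3 → Fin 3 ⊕ Fin 3, (∀ j, K33.Adj a (nb j)) ∧
      ∀ b, K33.Adj a b → ∃ j, nb j = b := by
    rcases a with i | i
    · refine ⟨Sum.inr, fun j => by simp [completeBipartiteGraph], ?_⟩
      rintro (b | b) hb
      · simp [completeBipartiteGraph] at hb
      · exact ⟨b, rfl⟩
    · refine ⟨Sum.inl, fun j => by simp [completeBipartiteGraph], ?_⟩
      rintro (b | b) hb
      · exact ⟨b, rfl⟩
      · simp [completeBipartiteGraph] at hb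
  have hxy : ∀ j, ∃ x ∈ μ a, ∃ y ∈ μ (nb j), G.Adj x y := fun j => c3 _ _ (hnb j)
  choose x hx y hy hxy using hxy
  obtain ⟨D, hD, hw, ν, d1, d2, d3⟩ :=
    thinStmt (μ a) (G.induce (μ a)) r (fun j => ⟨x j, hx j⟩) hr (c1 a) ha
  set F : Set V := (fun z : μ a => z.1) '' D with hF
  have hFs : F ⊆ μ a := by
    rintro _ ⟨z, _, rfl⟩
    exact z.2
  set η : Fin r × Fin r → Set V := fun z =>
    (fun v : μ a => v.1) '' ((fun v : (Dᶜ : Set (μ a)) => v.1) '' ν z) with hη
  have hηs : ∀ z, η z ⊆ μ a := by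
    rintro z _ ⟨v, _, rfl⟩
    exact v.2
  have hηF : ∀ z, Disjoint (η z) F := by
    intro z
    rw [Set.disjoint_left]
    rintro _ ⟨v, ⟨u, hu, rfl⟩, rfl⟩ ⟨v', hv', he⟩
    have : v' = u.1 := Subtype.ext he
    exact u.2 (this ▸ hv')
  have hκa : ∀ b, (if b = a then F else μ b) ⊆ μ b := by
    intro b
    split_ifs with h
    · rw [h]; exact hFs
    · exact subset_rfl
  refine ⟨Sum.elim (fun b => if b = a then F else μ b) η, ?_, ?_, ?_⟩
  · rintro (b | z)
    · show (G.induce (if b = a then F else μ b)).Connected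
      by_cases h : b = a
      · have e : (if b = a then F else μ b) = F := if_pos h
        rw [e]
        exact conn_image hD
      · have e : (if b = a then F else μ b) = μ b := if_neg h
        rw [e]
        exact c1 b
    · exact conn_image (conn_image (d1 z))
  · have hmix : ∀ b z, Disjoint (if b = a then F else μ b) (η z) := by
      intro b z
      split_ifs with h
      · exact (hηF z).symm
      · exact (c2 b a h).mono_right (hηs z)
    rintro (b | z) (b' | z') hne
    · show Disjoint (if b = a then F else μ b) (if b' = a then F else μ b')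
      exact (c2 b b' fun h => hne (by rw [h])).mono (hκa b) (hκa b')
    · exact hmix b z'
    · exact (hmix b' z).symm
    · show Disjoint (η z) (η z')
      have h := d2 z z' fun h => hne (by rw [h])
      rw [Set.disjoint_left]
      rintro _ ⟨_, ⟨u, hu, rfl⟩, rfl⟩ ⟨_, ⟨u', hu', rfl⟩, he⟩
      have : u' = u := Subtype.ext (Subtype.ext he)
      exact Set.disjoint_left.1 h hu (this ▸ hu')
  · have hmem : ∀ j, x j ∈ F := fun j => ⟨⟨x j, hx j⟩, hw j, rfl⟩
    rintro (b | z) (b' | z') hadj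
    · have hadj' : K33.Adj b b' := hadj
      show ∃ u ∈ (if b = a then F else μ b), ∃ v ∈ (if b' = a then F else μ b'), G.Adj u v
      by_cases h : b = a
      · subst h
        obtain ⟨j, rfl⟩ := hnb' b' hadj'
        have hne : nb j ≠ b := hadj'.ne'
        rw [if_pos rfl, if_neg hne]
        exact ⟨x j, hmem j, y j, hy j, hxy j⟩
      · by_cases h' : b' = a
        · subst h'
          obtain ⟨j, rfl⟩ := hnb' b hadj'.symm
          rw [if_neg h, if_pos rfl]
          exact ⟨y j, hy j, x j, hmem j, (hxy j).symm⟩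
        · rw [if_neg h, if_neg h']
          exact c3 b b' hadj'
    · exact absurd hadj Bool.false_ne_true
    · exact absurd hadj Bool.false_ne_true
    · obtain ⟨u, hu, v, hv, huv⟩ := d3 z z' hadj
      exact ⟨u.1.1, ⟨u.1, ⟨u, hu, rfl⟩, rfl⟩, v.1.1, ⟨v.1, ⟨v, hv, rfl⟩, rfl⟩, huv⟩

end Vale.Agent.P235.H917
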